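import Vale.Agent.Lib.P125.Defs

namespace Vale.Agent.Lib.P125

open Finset

set_option linter.unusedSectionVars false

section RandomMapping

variable {S κ : Type} [Fintype S] [DecidableEq S] [Fintype κ]

/-- Transition matrix of the chain which applies a uniformly chosen map of the family `φ`. -/
noncomputable def rmP (φ : κ → S → S) : Matrix S S ℝ :=
  fun s s' => (∑ k, if φ k s = s' then (1 : ℝ) else 0) / (Fintype.card κ : ℝ)

lemma rmP_sum_mul (φ : κ → S → S) (s : S) (G : S → ℝ) :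
    ∑ s', rmP φ s s' * G s' = (∑ k, G (φ k s)) / (Fintype.card κ : ℝ) := by
  unfold rmP
  simp only [div_mul_eq_mul_div, ← Finset.sum_div, Finset.sum_mul]
  congr 1
  rw [Finset.sum_comm]
  refine Finset.sum_congr rfl fun k _ => ?_
  simp [ite_mul]

lemma rmP_nonneg (φ : κ → S → S) (s s' : S) : 0 ≤ rmP φ s s' := by
  unfold rmP
  apply div_nonneg
  · exact Finset.sum_nonneg fun k _ => by split_ifs <;> norm_num
  · positivity

lemma rmP_row_sum [Nonempty κ] (φ : κ → S → S) (s : S) : ∑ s', rmP φ s s' = 1 := by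
  have h := rmP_sum_mul φ s (fun _ => (1 : ℝ))
  simp only [mul_one, Finset.sum_const, Finset.card_univ, nsmul_eq_mul] at h
  rw [h]
  have : (Fintype.card κ : ℝ) ≠ 0 := by
    exact_mod_cast Fintype.card_ne_zero
  field_simp

lemma rmP_sq_sum_mul (φ : κ → S → S) (s : S) (G : S → ℝ) :
    ∑ s'', (rmP φ ^ 2) s s'' * G s'' =
      (∑ k, ∑ l, G (φ l (φ k s))) / ((Fintype.card κ : ℝ) * (Fintype.card κ : ℝ)) := by
  have h1 : ∀ s'', (rmP φ ^ 2) s s'' * G s'' = ∑ s', rmP φ s s' * (rmP φ s' s'' * G s'') := by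
    intro s''
    rw [pow_two, Matrix.mul_apply, Finset.sum_mul]
    refine Finset.sum_congr rfl fun s' _ => by ring
  simp only [h1]
  rw [Finset.sum_comm]
  simp only [← Finset.mul_sum, rmP_sum_mul]
  simp only [Finset.sum_div, div_div]

end RandomMapping

section Cube

variable {ι : Type} [Fintype ι] [DecidableEq ι]

/-- Flip the `i`-th bit. -/
def flipBit (i : ι) (ω : ι → Bool) : ι → Bool := Function.update ω i (!ω i)

lemma flipBit_self (i : ι) (ω : ι → Bool) : flipBit i ω i = !ω i := by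
  simp [flipBit]

lemma flipBit_of_ne {i j : ι} (h : j ≠ i) (ω : ι → Bool) : flipBit i ω j = ω j := by
  simp [flipBit, Function.update_of_ne h]

lemma flipBit_flipBit (i : ι) (ω : ι → Bool) : flipBit i (flipBit i ω) = ω := by
  funext j
  by_cases h : j = i
  · subst h; simp [flipBit_self]
  · simp [flipBit_of_ne h]

lemma flipBit_involutive (i : ι) : Function.Involutive (flipBit (ι := ι) i) :=
  flipBit_flipBit i

variable {X : Type*} [NormedAddCommGroup X]

/-- The cube map `ω ↦ ∑ i with ω i, x i`. -/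
def cubeMap (x : ι → X) (ω : ι → Bool) : X := ∑ i, if ω i then x i else 0

/-- The signed increment of the cube map when bit `i` is flipped. -/
def cubeStep (x : ι → X) (i : ι) (ω : ι → Bool) : X := if ω i then -x i else x i

lemma cubeMap_flipBit (x : ι → X) (i : ι) (ω : ι → Bool) :
    cubeMap x (flipBit i ω) = cubeMap x ω + cubeStep x i ω := by
  unfold cubeMap cubeStep
  rw [← Finset.add_sum_erase _ _ (Finset.mem_univ i), ← Finset.add_sum_erase _ _ (Finset.mem_univ i)]
  have h : ∑ j ∈ Finset.univ.erase i, (if flipBit i ω j then x j else 0)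
      = ∑ j ∈ Finset.univ.erase i, (if ω j then x j else 0) := by
    refine Finset.sum_congr rfl fun j hj => ?_
    rw [flipBit_of_ne (Finset.ne_of_mem_erase hj)]
  rw [h, flipBit_self]
  cases ω i <;> simp <;> abel

lemma cubeStep_flipBit_self (x : ι → X) (i : ι) (ω : ι → Bool) :
    cubeStep x i (flipBit i ω) = -cubeStep x i ω := by
  unfold cubeStep
  rw [flipBit_self]
  cases ω i <;> simp

lemma cubeStep_flipBit_of_ne (x : ι → X) {i j : ι} (h : j ≠ i) (ω : ι → Bool) :
    cubeStep x j (flipBit i ω) = cubeStep x j ω := by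
  unfold cubeStep
  rw [flipBit_of_ne h]

lemma norm_cubeStep (x : ι → X) (i : ι) (ω : ι → Bool) : ‖cubeStep x i ω‖ = ‖x i‖ := by
  unfold cubeStep
  cases ω i <;> simp

lemma cube_pair_sum (x : ι → X) (p : ℝ) {i j : ι} (hij : i ≠ j) :
    2 * ∑ ω : ι → Bool, ‖cubeMap x ω - cubeMap x (flipBit j (flipBit i ω))‖ ^ p
      = (Fintype.card (ι → Bool) : ℝ) * (‖x i + x j‖ ^ p + ‖x i - x j‖ ^ p) := by
  have hji : j ≠ i := fun h => hij h.symm
  have h1 : ∀ ω : ι → Bool, ‖cubeMap x ω - cubeMap x (flipBit j (flipBit i ω))‖ ^ p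
      = ‖cubeStep x i ω + cubeStep x j ω‖ ^ p := by
    intro ω
    rw [cubeMap_flipBit, cubeMap_flipBit, cubeStep_flipBit_of_ne x hji]
    congr 1
    rw [← norm_neg]
    congr 1
    abel
  simp only [h1]
  have h2 : ∑ ω : ι → Bool, ‖cubeStep x i ω + cubeStep x j ω‖ ^ p
      = ∑ ω : ι → Bool, ‖cubeStep x i (flipBit i ω) + cubeStep x j (flipBit i ω)‖ ^ p :=
    (Equiv.sum_comp (flipBit_involutive i).toPerm
      (fun ω => ‖cubeStep x i ω + cubeStep x j ω‖ ^ p)).symm
  have h3 : ∀ ω : ι → Bool, ‖cubeStep x i ω + cubeStep x j ω‖ ^ p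
      + ‖cubeStep x i (flipBit i ω) + cubeStep x j (flipBit i ω)‖ ^ p
      = ‖x i + x j‖ ^ p + ‖x i - x j‖ ^ p := by
    intro ω
    rw [cubeStep_flipBit_self, cubeStep_flipBit_of_ne x hji]
    unfold cubeStep
    have e1 : ‖-x i + -x j‖ = ‖x i + x j‖ := by rw [← neg_add, norm_neg]
    have e2 : ‖-x i + x j‖ = ‖x i - x j‖ := by rw [← norm_neg]; congr 1; abel
    have e3 : ‖x i + -x j‖ = ‖x i - x j‖ := by rw [sub_eq_add_neg]
    cases ω i <;> cases ω j <;> simp [e1, e2, e3] <;> ring
  rw [two_mul]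
  nth_rewrite 2 [h2]
  rw [← Finset.sum_add_distrib]
  simp only [h3, Finset.sum_const, Finset.card_univ, nsmul_eq_mul]

/-- The two-step inequality on the Hamming cube: if `X` has Markov type `p` with constant `K`,
then for every finite family `x` of vectors the sum over ordered pairs `i ≠ j` of
`‖x i + x j‖ ^ p + ‖x i - x j‖ ^ p` is at most `4 * n * K ^ p * ∑ i, ‖x i‖ ^ p`. -/
theorem cube_ineq {p K : ℝ} (hp : 0 < p) (h : HasMarkovType X p K) [Nonempty ι] (x : ι → X) :
    ∑ i, ∑ j, (if i = j then 0 else ‖x i + x j‖ ^ p + ‖x i - x j‖ ^ p)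
      ≤ 4 * (Fintype.card ι : ℝ) * K ^ p * ∑ i, ‖x i‖ ^ p := by
  classical
  set n : ℝ := (Fintype.card ι : ℝ) with hn
  set N : ℝ := (Fintype.card (ι → Bool) : ℝ) with hN
  have hnpos : 0 < n := by
    rw [hn]; exact_mod_cast Fintype.card_pos
  have hNpos : 0 < N := by
    rw [hN]; exact_mod_cast Fintype.card_pos
  let P : Matrix (ι → Bool) (ι → Bool) ℝ := rmP (fun i : ι => flipBit i)
  let π : (ι → Bool) → ℝ := fun _ => 1 / N
  have hrev : IsRevChain π P := by
    refine ⟨fun _ => by positivity, ?_, fun s s' => rmP_nonneg _ s s',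
      fun s => rmP_row_sum _ s, ?_⟩
    · simp only [π, Finset.sum_const, Finset.card_univ, nsmul_eq_mul]
      rw [← hN]; field_simp
    · intro s s'
      have : P s s' = P s' s := by
        simp only [P, rmP]
        congr 1
        refine Finset.sum_congr rfl fun k _ => ?_
        have : flipBit k s = s' ↔ flipBit k s' = s := by
          constructor
          · intro e; rw [← e, flipBit_flipBit]
          · intro e; rw [← e, flipBit_flipBit]
        simp only [this]
      simp only [π, this]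
  have key := h.2 (ι → Bool) π P hrev (cubeMap x) 2 (by norm_num)
  have hR : ∑ i, ∑ j, π i * P i j * ‖cubeMap x i - cubeMap x j‖ ^ p
      = (∑ i, ‖x i‖ ^ p) / n := by
    have : ∀ ω : ι → Bool, ∑ ω', π ω * P ω ω' * ‖cubeMap x ω - cubeMap x ω'‖ ^ p
        = (1 / N) * ((∑ i, ‖x i‖ ^ p) / n) := by
      intro ω
      simp only [π, mul_assoc, ← Finset.mul_sum]
      congr 1
      rw [rmP_sum_mul]
      congr 1
      refine Finset.sum_congr rfl fun i _ => ?_
      rw [cubeMap_flipBit, sub_add_cancel_left, norm_neg, norm_cubeStep]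
    simp only [this, Finset.sum_const, Finset.card_univ, nsmul_eq_mul]
    rw [← hN]; field_simp
  have hL : ∑ i, ∑ j, π i * (P ^ 2) i j * ‖cubeMap x i - cubeMap x j‖ ^ p
      = (∑ i, ∑ j, (if i = j then 0 else ‖x i + x j‖ ^ p + ‖x i - x j‖ ^ p)) / (2 * n * n) := by
    have : ∀ ω : ι → Bool, ∑ ω', π ω * (P ^ 2) ω ω' * ‖cubeMap x ω - cubeMap x ω'‖ ^ p
        = (1 / N) * ((∑ i, ∑ j, ‖cubeMap x ω - cubeMap x (flipBit j (flipBit i ω))‖ ^ p)
            / (n * n)) := by
      intro ω
      simp only [π, mul_assoc, ← Finset.mul_sum]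
      congr 1
      rw [rmP_sq_sum_mul]
    simp only [this]
    rw [← Finset.mul_sum, ← Finset.sum_div]
    have hsw : ∑ ω : ι → Bool, ∑ i, ∑ j, ‖cubeMap x ω - cubeMap x (flipBit j (flipBit i ω))‖ ^ p
        = ∑ i, ∑ j, ∑ ω : ι → Bool,
            ‖cubeMap x ω - cubeMap x (flipBit j (flipBit i ω))‖ ^ p := by
      rw [Finset.sum_comm]
      refine Finset.sum_congr rfl fun i _ => ?_
      rw [Finset.sum_comm]
    rw [hsw]
    have hij : ∀ i j : ι, ∑ ω : ι → Bool,
        ‖cubeMap x ω - cubeMap x (flipBit j (flipBit i ω))‖ ^ p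
        = (N / 2) * (if i = j then 0 else ‖x i + x j‖ ^ p + ‖x i - x j‖ ^ p) := by
      intro i j
      by_cases hij : i = j
      · subst hij
        simp only [flipBit_flipBit, sub_self, norm_zero, if_true, mul_zero]
        rw [Real.zero_rpow hp.ne']
        simp
      · simp only [hij, if_false]
        have := cube_pair_sum x p hij
        rw [← hN] at this
        linarith
    simp only [hij, ← Finset.mul_sum]
    field_simp
  rw [hL, hR] at key
  have h2 : (∑ i, ∑ j, (if i = j then 0 else ‖x i + x j‖ ^ p + ‖x i - x j‖ ^ p))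
      ≤ (2 * n * n) * (K ^ p * ((2 : ℕ) : ℝ) * ((∑ i, ‖x i‖ ^ p) / n)) := by
    rw [div_le_iff₀ (by positivity)] at key
    linarith
  calc (∑ i, ∑ j, (if i = j then 0 else ‖x i + x j‖ ^ p + ‖x i - x j‖ ^ p))
      ≤ (2 * n * n) * (K ^ p * ((2 : ℕ) : ℝ) * ((∑ i, ‖x i‖ ^ p) / n)) := h2
    _ = 4 * n * K ^ p * ∑ i, ‖x i‖ ^ p := by
      push_cast
      field_simp
      ring

end Cube

end Vale.Agent.Lib.P125
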