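import Mathlib

namespace Vale.Agent.Lib.P125

/-- `IsRevChain π P`: on the finite state space `S`, `P` is a stochastic matrix and `π` is a
probability vector satisfying the detailed balance equations `π i * P i j = π j * P j i`
(the Markov chain with transition matrix `P` and initial distribution `π` is stationary
and reversible). -/
def IsRevChain {S : Type} [Fintype S] (π : S → ℝ) (P : Matrix S S ℝ) : Prop :=
  (∀ i, 0 ≤ π i) ∧ (∑ i, π i = 1) ∧ (∀ i j, 0 ≤ P i j) ∧ (∀ i, ∑ j, P i j = 1) ∧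
    ∀ i j, π i * P i j = π j * P j i

/-- `HasMarkovType X p K`: the normed space `X` has Markov type `p` with constant `K`, i.e.
for every stationary reversible finite Markov chain `(Z_t)` (transition matrix `P`, initial
distribution `π`), every `f : S → X` and every integer `t ≥ 1`,
`E ‖f (Z_t) - f (Z_0)‖ ^ p ≤ K ^ p * t * E ‖f (Z_1) - f (Z_0)‖ ^ p`. -/
def HasMarkovType (X : Type*) [NormedAddCommGroup X] (p K : ℝ) : Prop :=
  0 ≤ K ∧ ∀ (S : Type) [Fintype S] [DecidableEq S] (π : S → ℝ) (P : Matrix S S ℝ),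
    IsRevChain π P → ∀ (f : S → X) (t : ℕ), 1 ≤ t →
      ∑ i, ∑ j, π i * (P ^ t) i j * ‖f i - f j‖ ^ p
        ≤ K ^ p * (t : ℝ) * ∑ i, ∑ j, π i * P i j * ‖f i - f j‖ ^ p

end Vale.Agent.Lib.P125
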