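import Vale.Agent.Lib.P125.Cube

namespace Vale.Agent.Lib.P125

open Finset

variable {X : Type*} [NormedAddCommGroup X]

lemma norm_sum_le_pair {n : ℕ} (v : Fin n → X) (hv : ∀ l, ‖v l‖ ≤ 1) {i j : Fin n}
    (hij : i ≠ j) : ‖∑ l, v l‖ ≤ ‖v i + v j‖ + ((n : ℝ) - 2) := by
  have hj : j ∈ Finset.univ.erase i :=
    Finset.mem_erase.mpr ⟨fun h => hij h.symm, Finset.mem_univ j⟩
  have hn : 2 ≤ n := by
    have h1 := i.isLt
    have h2 := j.isLt
    have h3 := Fin.val_ne_of_ne hij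
    omega
  rw [← Finset.add_sum_erase _ _ (Finset.mem_univ i), ← Finset.add_sum_erase _ _ hj, ← add_assoc]
  refine (norm_add_le _ _).trans ?_
  have h1 : ‖∑ l ∈ (Finset.univ.erase i).erase j, v l‖ ≤ ((n : ℝ) - 2) := by
    refine (norm_sum_le _ _).trans ?_
    refine (Finset.sum_le_card_nsmul _ _ 1 (fun l _ => hv l)).trans ?_
    rw [Finset.card_erase_of_mem hj, Finset.card_erase_of_mem (Finset.mem_univ i),
      Finset.card_univ, Fintype.card_fin]
    have : ((n - 1 - 1 : ℕ) : ℝ) = (n : ℝ) - 2 := by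
      rw [Nat.sub_sub, Nat.cast_sub hn]; norm_num
    simp [this]
  linarith

/-- Pairwise consequence of a James configuration. -/
lemma james_pair {n : ℕ} {r δ : ℝ} (hr : r = 2 - δ) (x : Fin n → X) (hx1 : ∀ i, ‖x i‖ ≤ 1)
    (hx : ∀ k : Fin n, (n : ℝ) - δ < ‖∑ i, (if i ≤ k then x i else -x i)‖)
    {i j : Fin n} (hij : i < j) : r < ‖x i + x j‖ ∧ r < ‖x i - x j‖ := by
  have hne : i ≠ j := ne_of_lt hij
  constructor
  · have hv : ∀ l, ‖(if l ≤ j then x l else -x l)‖ ≤ 1 := by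
      intro l; split_ifs
      · exact hx1 l
      · rw [norm_neg]; exact hx1 l
    have h1 := norm_sum_le_pair (fun l => if l ≤ j then x l else -x l) hv hne
    have h2 := hx j
    simp only [le_of_lt hij, le_refl, if_true] at h1
    linarith
  · have hv : ∀ l, ‖(if l ≤ i then x l else -x l)‖ ≤ 1 := by
      intro l; split_ifs
      · exact hx1 l
      · rw [norm_neg]; exact hx1 l
    have h1 := norm_sum_le_pair (fun l => if l ≤ i then x l else -x l) hv hne
    have h2 := hx i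
    simp only [not_le.mpr hij, le_refl, if_true, if_false, ← sub_eq_add_neg] at h1
    linarith

/-- Gap theorem, James form: Markov type `p` with a constant `K` such that `K ^ p < 2 ^ (p - 1)`
forces `J`-convexity. -/
theorem jconvex_of_markovType {p K : ℝ} (hp : 0 < p) (hK : K ^ p < 2 ^ (p - 1))
    (h : HasMarkovType X p K) :
    ∃ n : ℕ, 2 ≤ n ∧ ∃ δ : ℝ, 0 < δ ∧ ∀ x : Fin n → X, (∀ i, ‖x i‖ ≤ 1) →
      ∃ k : Fin n, ‖∑ i, (if i ≤ k then x i else -x i)‖ ≤ (n : ℝ) - δ := by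
  have hK0 : 0 ≤ K ^ p := Real.rpow_nonneg h.1 p
  set A : ℝ := 2 ^ p with hA
  set B : ℝ := 2 * K ^ p with hB
  have hAB : B < A := by
    have : (2 : ℝ) ^ (p - 1) = 2 ^ p / 2 := Real.rpow_sub_one (by norm_num) p
    rw [this] at hK
    rw [hA, hB]; linarith
  have hB0 : 0 ≤ B := by rw [hB]; positivity
  obtain ⟨n0, hn0⟩ := exists_nat_gt (A / (A - B))
  set n : ℕ := max n0 2 with hn
  have hn2 : 2 ≤ n := le_max_right _ _
  have hnR : (2 : ℝ) ≤ (n : ℝ) := by exact_mod_cast hn2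
  have hn1 : A / (A - B) < (n : ℝ) := lt_of_lt_of_le hn0 (by exact_mod_cast le_max_left _ _)
  have hnAB : A < (n : ℝ) * (A - B) := by
    rwa [div_lt_iff₀ (by linarith)] at hn1
  -- c = n B / (n - 1) < A
  set c : ℝ := (n : ℝ) * B / ((n : ℝ) - 1) with hc
  have hcA : c < A := by
    rw [hc, div_lt_iff₀ (by linarith)]; nlinarith
  have hc0 : 0 ≤ c := by
    rw [hc]; apply div_nonneg (by positivity) (by linarith)
  set r : ℝ := ((c + A) / 2) ^ (1 / p) with hr
  have hr0 : 0 ≤ r := Real.rpow_nonneg (by linarith) _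
  have hrp : r ^ p = (c + A) / 2 := by
    rw [hr, ← Real.rpow_mul (by linarith), one_div, inv_mul_cancel₀ hp.ne', Real.rpow_one]
  have hr2 : r < 2 := by
    by_contra hcon
    push Not at hcon
    have : (2 : ℝ) ^ p ≤ r ^ p := Real.rpow_le_rpow (by norm_num) hcon hp.le
    rw [hrp, ← hA] at this
    linarith
  refine ⟨n, hn2, 2 - r, by linarith, ?_⟩
  intro x hx1
  by_contra hcon
  push Not at hcon
  have : Nonempty (Fin n) := ⟨⟨0, by omega⟩⟩
  have hpair : ∀ i j : Fin n, i ≠ j → 2 * r ^ p ≤ ‖x i + x j‖ ^ p + ‖x i - x j‖ ^ p := by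
    intro i j hij
    rcases lt_or_gt_of_ne hij with hlt | hgt
    · obtain ⟨h1, h2⟩ := james_pair (r := r) (δ := 2 - r) (by ring) x hx1 hcon hlt
      have e1 := Real.rpow_le_rpow hr0 h1.le hp.le
      have e2 := Real.rpow_le_rpow hr0 h2.le hp.le
      linarith
    · obtain ⟨h1, h2⟩ := james_pair (r := r) (δ := 2 - r) (by ring) x hx1 hcon hgt
      rw [add_comm] at h1
      rw [norm_sub_rev] at h2
      have e1 := Real.rpow_le_rpow hr0 h1.le hp.le
      have e2 := Real.rpow_le_rpow hr0 h2.le hp.le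
      linarith
  have hcube := cube_ineq hp h x
  rw [Fintype.card_fin] at hcube
  have hlow : ((n : ℝ) * (n : ℝ) - (n : ℝ)) * (2 * r ^ p)
      ≤ ∑ i, ∑ j, (if i = j then 0 else ‖x i + x j‖ ^ p + ‖x i - x j‖ ^ p) := by
    have hconst : ∀ i : Fin n, ∑ j : Fin n, (if i = j then (0 : ℝ) else 2 * r ^ p)
        = ((n : ℝ) - 1) * (2 * r ^ p) := by
      intro i
      have : ∀ j : Fin n, (if i = j then (0 : ℝ) else 2 * r ^ p)
          = 2 * r ^ p - (if i = j then 2 * r ^ p else 0) := by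
        intro j; split_ifs <;> simp
      simp only [this, Finset.sum_sub_distrib, Finset.sum_const, Finset.card_univ,
        Fintype.card_fin, nsmul_eq_mul, Finset.sum_ite_eq, Finset.mem_univ, if_true]
      ring
    calc ((n : ℝ) * (n : ℝ) - (n : ℝ)) * (2 * r ^ p)
        = ∑ i : Fin n, ∑ j : Fin n, (if i = j then (0 : ℝ) else 2 * r ^ p) := by
          simp only [hconst, Finset.sum_const, Finset.card_univ, Fintype.card_fin, nsmul_eq_mul]
          ring
      _ ≤ _ := by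
          refine Finset.sum_le_sum fun i _ => Finset.sum_le_sum fun j _ => ?_
          split_ifs with hij
          · exact le_refl _
          · exact hpair i j hij
  have hup : ∑ i, ‖x i‖ ^ p ≤ (n : ℝ) := by
    have : ∀ i : Fin n, ‖x i‖ ^ p ≤ 1 := fun i =>
      Real.rpow_le_one (norm_nonneg _) (hx1 i) hp.le
    calc ∑ i, ‖x i‖ ^ p ≤ ∑ _i : Fin n, (1 : ℝ) := Finset.sum_le_sum fun i _ => this i
      _ = (n : ℝ) := by simp
  have hfin : ((n : ℝ) * (n : ℝ) - (n : ℝ)) * (2 * r ^ p) ≤ 4 * (n : ℝ) * K ^ p * (n : ℝ) :=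
    hlow.trans (hcube.trans (mul_le_mul_of_nonneg_left hup (by positivity)))
  rw [hrp] at hfin
  -- (n^2 - n)(c + A) ≤ 4 n^2 K^p = 2 n^2 B = 2 n (n-1) c
  have hcB : c * ((n : ℝ) - 1) = (n : ℝ) * B := by
    rw [hc, div_mul_cancel₀]; linarith
  have hfin2 : (n : ℝ) * (((n : ℝ) - 1) * (c + A)) ≤ (n : ℝ) * (2 * (c * ((n : ℝ) - 1))) := by
    rw [hcB, hB]; nlinarith
  have hfin3 : ((n : ℝ) - 1) * (c + A) ≤ 2 * (c * ((n : ℝ) - 1)) :=
    le_of_mul_le_mul_left hfin2 (by linarith)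
  nlinarith

end Vale.Agent.Lib.P125
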