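import Vale.Agent.Lib.P125.Square

namespace Vale.Agent.Lib.P125

variable {X : Type*} [NormedAddCommGroup X] [NormedSpace ℝ X]

lemma parallelogram_le_of_markovType (h : HasMarkovType X 2 1) (x y : X) :
    ‖x + y‖ ^ 2 + ‖x - y‖ ^ 2 ≤ 2 * (‖x‖ ^ 2 + ‖y‖ ^ 2) := by
  have hcl := clarkson_of_markovType (p := 2) (K := 1) (by norm_num) h x y
  simp only [Real.rpow_two] at hcl
  have e : (4 * (1 : ℝ) ^ 2 - 2 ^ ((2 : ℝ) - 1)) = 2 := by norm_num
  rw [e] at hcl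
  exact hcl

theorem parallelogram_of_markovType (h : HasMarkovType X 2 1) (x y : X) :
    ‖x + y‖ ^ 2 + ‖x - y‖ ^ 2 = 2 * (‖x‖ ^ 2 + ‖y‖ ^ 2) := by
  apply le_antisymm (parallelogram_le_of_markovType h x y)
  have h2 := parallelogram_le_of_markovType h (x + y) (x - y)
  have e1 : x + y + (x - y) = (2 : ℝ) • x := by rw [two_smul]; abel
  have e2 : x + y - (x - y) = (2 : ℝ) • y := by rw [two_smul]; abel
  rw [e1, e2, norm_smul, norm_smul] at h2
  simp only [Real.norm_ofNat] at h2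
  nlinarith

theorem uniformConvex_of_markovType (h : HasMarkovType X 2 1) : UniformConvexSpace X := by
  refine ⟨fun ε hε => ?_⟩
  by_cases hε2 : ε ≤ 2
  · refine ⟨ε ^ 2 / 4, by positivity, ?_⟩
    intro x hx y hy hxy
    have hpar := parallelogram_le_of_markovType h x y
    rw [hx, hy] at hpar
    have h1 : ‖x + y‖ ^ 2 ≤ 4 - ε ^ 2 := by nlinarith [norm_nonneg (x - y)]
    have h3 : 0 ≤ 2 - ε ^ 2 / 4 := by nlinarith
    have h4 : ‖x + y‖ ^ 2 ≤ (2 - ε ^ 2 / 4) ^ 2 := by nlinarith [sq_nonneg (ε ^ 2)]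
    exact abs_le_of_sq_le_sq' h4 h3 |>.2
  · refine ⟨1, one_pos, ?_⟩
    intro x hx y hy hxy
    exfalso
    have : ‖x - y‖ ≤ 2 := by
      calc ‖x - y‖ ≤ ‖x‖ + ‖y‖ := norm_sub_le x y
        _ = 2 := by rw [hx, hy]; norm_num
    linarith

end Vale.Agent.Lib.P125
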