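import Vale.Agent.Lib.P125.Cube

namespace Vale.Agent.Lib.P125

open Finset

variable {X : Type*} [NormedAddCommGroup X] [NormedSpace ℝ X]

/-- Finite form: the cube inequality applied to `m + 1` copies of `x` and `m + 1` copies of `y`. -/
lemma clarkson_finite {p K : ℝ} (hp : 0 < p) (h : HasMarkovType X p K) (x y : X) (m : ℕ) :
    ‖x + y‖ ^ p + ‖x - y‖ ^ p
      ≤ (4 * K ^ p - 2 ^ (p - 1)) * (‖x‖ ^ p + ‖y‖ ^ p)
        + 2 ^ (p - 1) * (‖x‖ ^ p + ‖y‖ ^ p) / ((m : ℝ) + 1) := by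
  have hcube := cube_ineq hp h (ι := Bool × Fin (m + 1)) (fun a => if a.1 then y else x)
  have h2p : (2 : ℝ) ^ (p - 1) = 2 ^ p / 2 := Real.rpow_sub_one (by norm_num) p
  have hdiag : ∀ u : X, ‖u + u‖ ^ p + ‖u - u‖ ^ p = 2 ^ p * ‖u‖ ^ p := by
    intro u
    rw [sub_self, norm_zero, Real.zero_rpow hp.ne', add_zero, ← two_smul ℝ u, norm_smul,
      Real.mul_rpow (by positivity) (norm_nonneg _)]
    norm_num
  have hsplit : ∀ a b : Bool × Fin (m + 1),
      (if a = b then (0 : ℝ) else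
        ‖(if a.1 then y else x) + (if b.1 then y else x)‖ ^ p
          + ‖(if a.1 then y else x) - (if b.1 then y else x)‖ ^ p)
      = (‖(if a.1 then y else x) + (if b.1 then y else x)‖ ^ p
          + ‖(if a.1 then y else x) - (if b.1 then y else x)‖ ^ p)
        - (if a = b then 2 ^ p * ‖(if a.1 then y else x)‖ ^ p else 0) := by
    intro a b
    by_cases hab : a = b
    · subst hab
      simp only [if_true]
      rw [hdiag]; ring
    · simp only [hab, if_false, sub_zero]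
  simp only [hsplit, Finset.sum_sub_distrib, Finset.sum_ite_eq, Finset.mem_univ, if_true] at hcube
  simp only [Fintype.sum_prod_type, Fintype.sum_bool, Finset.sum_const, Finset.card_univ,
    Fintype.card_fin, nsmul_eq_mul, Fintype.card_prod, Fintype.card_bool, if_true,
    Bool.false_eq_true, if_false, hdiag] at hcube
  have e1 : ‖y + x‖ = ‖x + y‖ := by rw [add_comm]
  have e2 : ‖y - x‖ = ‖x - y‖ := norm_sub_rev y x
  rw [e1, e2] at hcube
  push_cast at hcube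
  set Q : ℝ := ‖x‖ ^ p + ‖y‖ ^ p with hQ
  set W : ℝ := ‖x + y‖ ^ p + ‖x - y‖ ^ p with hW
  set M : ℝ := (m : ℝ) + 1 with hM
  have hMpos : 0 < M := by rw [hM]; positivity
  rw [h2p]
  have hkey : 2 * M * M * W ≤ M * M * ((8 * K ^ p - 2 ^ p) * Q) + M * (2 ^ p * Q) := by
    nlinarith [hcube]
  have : W ≤ (4 * K ^ p - 2 ^ p / 2) * Q + 2 ^ p / 2 * Q / M := by
    rw [← sub_nonneg]
    have : (4 * K ^ p - 2 ^ p / 2) * Q + 2 ^ p / 2 * Q / M - W
        = (M * M * ((8 * K ^ p - 2 ^ p) * Q) + M * (2 ^ p * Q) - 2 * M * M * W) / (2 * M * M) := by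
      field_simp
      ring
    rw [this]
    apply div_nonneg (by linarith) (by positivity)
  exact this

/-- Markov type `p` with constant `K` implies a Clarkson / von Neumann-Jordan type inequality. -/
theorem clarkson_of_markovType {p K : ℝ} (hp : 0 < p) (h : HasMarkovType X p K) (x y : X) :
    ‖x + y‖ ^ p + ‖x - y‖ ^ p ≤ (4 * K ^ p - 2 ^ (p - 1)) * (‖x‖ ^ p + ‖y‖ ^ p) := by
  have hQ : 0 ≤ 2 ^ (p - 1) * (‖x‖ ^ p + ‖y‖ ^ p) := by
    have h1 : (0 : ℝ) ≤ 2 ^ (p - 1) := Real.rpow_nonneg (by norm_num) _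
    have h2 : 0 ≤ ‖x‖ ^ p := Real.rpow_nonneg (norm_nonneg _) _
    have h3 : 0 ≤ ‖y‖ ^ p := Real.rpow_nonneg (norm_nonneg _) _
    positivity
  apply le_of_forall_pos_le_add
  intro ε hε
  obtain ⟨m, hm⟩ := exists_nat_gt (2 ^ (p - 1) * (‖x‖ ^ p + ‖y‖ ^ p) / ε)
  have hfin := clarkson_finite hp h x y m
  have hm1 : (0 : ℝ) < (m : ℝ) + 1 := by positivity
  have : 2 ^ (p - 1) * (‖x‖ ^ p + ‖y‖ ^ p) / ((m : ℝ) + 1) ≤ ε := by
    rw [div_le_iff₀ hm1]
    rw [div_lt_iff₀ hε] at hm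
    nlinarith
  linarith

/-- Gap theorem, uniformly non-square form. -/
theorem nonsquare_of_markovType {p K : ℝ} (hp : 0 < p) (hK : K ^ p < 3 * 2 ^ (p - 3))
    (h : HasMarkovType X p K) :
    ∃ δ : ℝ, 0 < δ ∧ ∀ x y : X, ‖x‖ ≤ 1 → ‖y‖ ≤ 1 → min ‖x + y‖ ‖x - y‖ ≤ 2 - δ := by
  set A : ℝ := 2 ^ p with hA
  have hA0 : 0 < A := Real.rpow_pos_of_pos (by norm_num) p
  have h1 : (2 : ℝ) ^ (p - 1) = A / 2 := Real.rpow_sub_one (by norm_num) p
  have h3 : (2 : ℝ) ^ (p - 3) = A / 8 := by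
    rw [Real.rpow_sub (by norm_num), ← hA]
    norm_num
  rw [h3] at hK
  set c : ℝ := max (4 * K ^ p - 2 ^ (p - 1)) 0 with hc
  have hc0 : 0 ≤ c := le_max_right _ _
  have hcA : c < A := by
    rw [hc, h1]
    apply max_lt <;> linarith
  set r : ℝ := ((c + A) / 2) ^ (1 / p) with hr
  have hr0 : 0 ≤ r := Real.rpow_nonneg (by linarith) _
  have hrp : r ^ p = (c + A) / 2 := by
    rw [hr, ← Real.rpow_mul (by linarith), one_div, inv_mul_cancel₀ hp.ne', Real.rpow_one]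
  have hr2 : r < 2 := by
    by_contra hcon
    push Not at hcon
    have : (2 : ℝ) ^ p ≤ r ^ p := Real.rpow_le_rpow (by norm_num) hcon hp.le
    rw [hrp, ← hA] at this
    linarith
  refine ⟨2 - r, by linarith, ?_⟩
  intro x y hx hy
  by_contra hcon
  push Not at hcon
  have hr' : r < min ‖x + y‖ ‖x - y‖ := by linarith
  have e1 := Real.rpow_le_rpow hr0 (hr'.trans_le (min_le_left _ _)).le hp.le
  have e2 := Real.rpow_le_rpow hr0 (hr'.trans_le (min_le_right _ _)).le hp.le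
  have hcl := clarkson_of_markovType hp h x y
  have hx1 : ‖x‖ ^ p ≤ 1 := Real.rpow_le_one (norm_nonneg _) hx hp.le
  have hy1 : ‖y‖ ^ p ≤ 1 := Real.rpow_le_one (norm_nonneg _) hy hp.le
  have hx0 : 0 ≤ ‖x‖ ^ p := Real.rpow_nonneg (norm_nonneg _) _
  have hy0 : 0 ≤ ‖y‖ ^ p := Real.rpow_nonneg (norm_nonneg _) _
  have hle : (4 * K ^ p - 2 ^ (p - 1)) * (‖x‖ ^ p + ‖y‖ ^ p) ≤ c * 2 := by
    have : (4 * K ^ p - 2 ^ (p - 1)) ≤ c := le_max_left _ _
    nlinarith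
  rw [hrp] at e1 e2
  linarith

end Vale.Agent.Lib.P125
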