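import Vale.Agent.Lib.P125.Defs

namespace Vale.Agent.Lib.P125

open Finset

variable {X : Type*} [NormedAddCommGroup X] [NormedSpace ℝ X]

lemma revChain_pow_nonneg {S : Type} [Fintype S] [DecidableEq S] {π : S → ℝ}
    {P : Matrix S S ℝ} (hP : IsRevChain π P) (t : ℕ) (i j : S) : 0 ≤ (P ^ t) i j := by
  induction t generalizing i j with
  | zero =>
    rw [pow_zero, Matrix.one_apply]
    split_ifs <;> norm_num
  | succ t ih =>
    rw [pow_succ, Matrix.mul_apply]
    exact Finset.sum_nonneg fun k _ => mul_nonneg (ih i k) (hP.2.2.1 k j)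

/-- Each term of a sum of `m` reals bounded by `1` whose total exceeds `m - δ` exceeds `1 - δ`. -/
lemma term_gt_of_sum_gt {m : ℕ} (c : Fin m → ℝ) (hc : ∀ l, c l ≤ 1) {δ : ℝ}
    (hs : (m : ℝ) - δ < ∑ l, c l) (l : Fin m) : 1 - δ < c l := by
  have h1 : ∑ l' ∈ Finset.univ.erase l, c l' ≤ (m : ℝ) - 1 := by
    refine (Finset.sum_le_card_nsmul _ _ 1 (fun l' _ => hc l')).trans ?_
    rw [Finset.card_erase_of_mem (Finset.mem_univ l), Finset.card_univ, Fintype.card_fin]
    have hm : 1 ≤ m := by
      have := l.isLt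
      omega
    rw [nsmul_eq_mul, mul_one, Nat.cast_sub hm, Nat.cast_one]
  have h2 := Finset.add_sum_erase Finset.univ c (Finset.mem_univ l)
  linarith

/-- Lower bound for the norm of a combination of a James sequence: along every cut `k`, the
norm dominates the cut functional up to an `ℓ_1` error of relative size `δ`. -/
lemma james_lower {m : ℕ} {δ : ℝ} (x : Fin m → X) (hx1 : ∀ i, ‖x i‖ ≤ 1)
    (hx : ∀ k : Fin m, (m : ℝ) - δ < ‖∑ i, (if i ≤ k then x i else -x i)‖)
    (a : Fin m → ℝ) (k : Fin m) :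
    |∑ l, (if l ≤ k then a l else -a l)| - δ * ∑ l, |a l| ≤ ‖∑ l, a l • x l‖ := by
  obtain ⟨g, hg1, hg2⟩ := exists_dual_vector'' ℝ (∑ i, (if i ≤ k then x i else -x i))
  set c : Fin m → ℝ := fun l => g (if l ≤ k then x l else -x l) with hc
  have hcle : ∀ l, c l ≤ 1 := by
    intro l
    have h1 : c l ≤ ‖g (if l ≤ k then x l else -x l)‖ := le_abs_self _
    have h2 : ‖g (if l ≤ k then x l else -x l)‖ ≤ ‖g‖ * ‖(if l ≤ k then x l else -x l)‖ :=
      g.le_opNorm _
    have h3 : ‖(if l ≤ k then x l else -x l)‖ ≤ 1 := by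
      split_ifs
      · exact hx1 l
      · rw [norm_neg]; exact hx1 l
    have h4 : ‖g‖ * ‖(if l ≤ k then x l else -x l)‖ ≤ 1 * 1 :=
      mul_le_mul hg1 h3 (norm_nonneg _) zero_le_one
    linarith
  have hsum : ∑ l, c l = ‖∑ i, (if i ≤ k then x i else -x i)‖ := by
    rw [hc, ← map_sum]
    exact_mod_cast hg2
  have hcgt : ∀ l, 1 - δ < c l := fun l =>
    term_gt_of_sum_gt c hcle (by rw [hsum]; exact hx k) l
  -- value of g on the combination
  have hgval : g (∑ l, a l • x l) = ∑ l, (if l ≤ k then a l else -a l) * c l := by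
    rw [map_sum]
    refine Finset.sum_congr rfl fun l _ => ?_
    have hcl : c l = g (if l ≤ k then x l else -x l) := rfl
    rw [hcl, map_smul, smul_eq_mul]
    split_ifs
    · rfl
    · rw [map_neg]; ring
  have hdiff : |∑ l, (if l ≤ k then a l else -a l) - g (∑ l, a l • x l)| ≤ δ * ∑ l, |a l| := by
    rw [hgval, ← Finset.sum_sub_distrib, Finset.mul_sum]
    refine (Finset.abs_sum_le_sum_abs _ _).trans (Finset.sum_le_sum fun l _ => ?_)
    have h1 : (if l ≤ k then a l else -a l) - (if l ≤ k then a l else -a l) * c l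
        = (if l ≤ k then a l else -a l) * (1 - c l) := by ring
    rw [h1, abs_mul]
    have h2 : |(if l ≤ k then a l else -a l)| = |a l| := by
      split_ifs
      · rfl
      · exact abs_neg _
    have h3 : |1 - c l| ≤ δ := by
      rw [abs_le]
      constructor
      · linarith [hcle l, (show (0 : ℝ) ≤ δ by linarith [hcgt l, hcle l])]
      · linarith [hcgt l]
    rw [h2, mul_comm]
    exact mul_le_mul_of_nonneg_right h3 (abs_nonneg _)
  have hgn : |g (∑ l, a l • x l)| ≤ ‖∑ l, a l • x l‖ := by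
    have h1 : ‖g (∑ l, a l • x l)‖ ≤ ‖g‖ * ‖∑ l, a l • x l‖ := g.le_opNorm _
    have h2 : ‖g‖ * ‖∑ l, a l • x l‖ ≤ 1 * ‖∑ l, a l • x l‖ :=
      mul_le_mul_of_nonneg_right hg1 (norm_nonneg _)
    rw [Real.norm_eq_abs] at h1
    linarith
  have htri : |∑ l, (if l ≤ k then a l else -a l)|
      ≤ |∑ l, (if l ≤ k then a l else -a l) - g (∑ l, a l • x l)| + |g (∑ l, a l • x l)| := by
    have := abs_add_le (∑ l, (if l ≤ k then a l else -a l) - g (∑ l, a l • x l))
      (g (∑ l, a l • x l))
    simpa using this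
  linarith

lemma james_upper {m : ℕ} (x : Fin m → X) (hx1 : ∀ i, ‖x i‖ ≤ 1) (a : Fin m → ℝ) :
    ‖∑ l, a l • x l‖ ≤ ∑ l, |a l| := by
  refine (norm_sum_le _ _).trans (Finset.sum_le_sum fun l _ => ?_)
  rw [norm_smul, Real.norm_eq_abs]
  have := mul_le_mul_of_nonneg_left (hx1 l) (abs_nonneg (a l))
  linarith

/-- Transfer principle: a space with Markov type `p` and constant `K` that is not `J`-convex
satisfies the scalar `summing' Markov type inequality with the same constant: for every
stationary reversible chain, every `f : S → ℝ^n`, every time `t ≥ 1` and every choice of cuts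
`κ i j`, the `p`-th moment at time `t` of the cut functionals
`|∑_{l ≤ κ} a_l - ∑_{l > κ} a_l|` of the displacement `a = f i - f j` is at most `K^p t` times
the `p`-th moment at time `1` of its `ℓ_1` norm. -/
theorem james_transfer {p K : ℝ} (hp : 0 < p) (h : HasMarkovType X p K)
    (hJ : ∀ n : ℕ, 2 ≤ n → ∀ δ : ℝ, 0 < δ → ∃ x : Fin n → X, (∀ i, ‖x i‖ ≤ 1) ∧
      ∀ k : Fin n, (n : ℝ) - δ < ‖∑ i, (if i ≤ k then x i else -x i)‖)
    (n : ℕ) (S : Type) [Fintype S] [DecidableEq S] (π : S → ℝ) (P : Matrix S S ℝ)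
    (hP : IsRevChain π P) (f : S → Fin n → ℝ) (κ : S → S → Fin n) (t : ℕ) (ht : 1 ≤ t) :
    ∑ i, ∑ j, π i * (P ^ t) i j *
        |∑ l, (if l ≤ κ i j then (f i l - f j l) else -(f i l - f j l))| ^ p
      ≤ K ^ p * (t : ℝ) * ∑ i, ∑ j, π i * P i j * (∑ l, |f i l - f j l|) ^ p := by
  set T : S → S → ℝ := fun i j =>
    |∑ l, (if l ≤ κ i j then (f i l - f j l) else -(f i l - f j l))| with hT
  set L : S → S → ℝ := fun i j => ∑ l, |f i l - f j l| with hL
  set R : ℝ := K ^ p * (t : ℝ) * ∑ i, ∑ j, π i * P i j * (L i j) ^ p with hR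
  have hL0 : ∀ i j, 0 ≤ L i j := fun i j => Finset.sum_nonneg fun l _ => abs_nonneg _
  have hw : ∀ i j, 0 ≤ π i * (P ^ t) i j := fun i j =>
    mul_nonneg (hP.1 i) (revChain_pow_nonneg hP t i j)
  have hw1 : ∀ i j, 0 ≤ π i * P i j := fun i j => mul_nonneg (hP.1 i) (hP.2.2.1 i j)
  have hKt : 0 ≤ K ^ p * (t : ℝ) := mul_nonneg (Real.rpow_nonneg h.1 p) (Nat.cast_nonneg t)
  -- the perturbed inequality for every δ > 0
  have key : ∀ δ : ℝ, 0 < δ →
      ∑ i, ∑ j, π i * (P ^ t) i j * (max (T i j - δ * L i j) 0) ^ p ≤ R := by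
    intro δ hδ
    obtain ⟨x, hx1, hx⟩ := hJ (n + 2) (by omega) δ hδ
    -- extend coefficient vectors by zero
    set e : (Fin n → ℝ) → Fin (n + 2) → ℝ := fun a l' =>
      if hl : (l' : ℕ) < n then a ⟨l', hl⟩ else 0 with he
    have he_sum : ∀ (a : Fin n → ℝ) (φ : Fin (n + 2) → ℝ → ℝ), (∀ l', φ l' 0 = 0) →
        ∑ l', φ l' (e a l') = ∑ l : Fin n, φ (Fin.castAdd 2 l) (a l) := by
      intro a φ hφ
      rw [Fin.sum_univ_add]
      have h2 : ∑ l : Fin 2, φ (Fin.natAdd n l) (e a (Fin.natAdd n l)) = 0 := by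
        refine Finset.sum_eq_zero fun l _ => ?_
        have : e a (Fin.natAdd n l) = 0 := by
          simp [he]
        rw [this, hφ]
      rw [h2, add_zero]
      refine Finset.sum_congr rfl fun l _ => ?_
      have : e a (Fin.castAdd 2 l) = a l := by
        simp [he]
      rw [this]
    set F : S → X := fun s => ∑ l', e (f s) l' • x l' with hF
    have hFsub : ∀ i j, F i - F j = ∑ l', e (fun l => f i l - f j l) l' • x l' := by
      intro i j
      rw [hF]
      simp only
      rw [← Finset.sum_sub_distrib]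
      refine Finset.sum_congr rfl fun l' _ => ?_
      rw [← sub_smul]
      congr 1
      simp only [he]
      split_ifs <;> simp
    have hup : ∀ i j, ‖F i - F j‖ ≤ L i j := by
      intro i j
      rw [hFsub]
      refine (james_upper x hx1 _).trans (le_of_eq ?_)
      rw [he_sum (fun l => f i l - f j l) (fun _ y => |y|) (fun _ => abs_zero)]
    have hlow : ∀ i j, max (T i j - δ * L i j) 0 ≤ ‖F i - F j‖ := by
      intro i j
      refine max_le ?_ (norm_nonneg _)
      rw [hFsub]
      have hl := james_lower x hx1 hx (e (fun l => f i l - f j l)) (Fin.castAdd 2 (κ i j))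
      have e1 : ∑ l', (if l' ≤ Fin.castAdd 2 (κ i j) then e (fun l => f i l - f j l) l'
            else -e (fun l => f i l - f j l) l')
          = ∑ l, (if l ≤ κ i j then (f i l - f j l) else -(f i l - f j l)) := by
        rw [he_sum (fun l => f i l - f j l)
          (fun l' y => if l' ≤ Fin.castAdd 2 (κ i j) then y else -y)
          (fun l' => by split_ifs <;> simp)]
        refine Finset.sum_congr rfl fun l _ => ?_
        have hiff : (Fin.castAdd 2 l ≤ Fin.castAdd 2 (κ i j)) ↔ l ≤ κ i j := Iff.rfl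
        simp only [hiff]
      have e2 : ∑ l', |e (fun l => f i l - f j l) l'| = L i j := by
        rw [he_sum (fun l => f i l - f j l) (fun _ y => |y|) (fun _ => abs_zero)]
      rw [e1, e2] at hl
      exact hl
    have hmt := h.2 S π P hP F t ht
    calc ∑ i, ∑ j, π i * (P ^ t) i j * (max (T i j - δ * L i j) 0) ^ p
        ≤ ∑ i, ∑ j, π i * (P ^ t) i j * ‖F i - F j‖ ^ p := by
          refine Finset.sum_le_sum fun i _ => Finset.sum_le_sum fun j _ => ?_
          exact mul_le_mul_of_nonneg_left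
            (Real.rpow_le_rpow (le_max_right _ _) (hlow i j) hp.le) (hw i j)
      _ ≤ K ^ p * (t : ℝ) * ∑ i, ∑ j, π i * P i j * ‖F i - F j‖ ^ p := hmt
      _ ≤ R := by
          rw [hR]
          refine mul_le_mul_of_nonneg_left ?_ hKt
          refine Finset.sum_le_sum fun i _ => Finset.sum_le_sum fun j _ => ?_
          exact mul_le_mul_of_nonneg_left
            (Real.rpow_le_rpow (norm_nonneg _) (hup i j) hp.le) (hw1 i j)
  -- let δ → 0
  set G : ℝ → ℝ := fun δ => ∑ i, ∑ j, π i * (P ^ t) i j * (max (T i j - δ * L i j) 0) ^ p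
    with hG
  have hcont : Continuous G := by
    rw [hG]
    refine continuous_finsetSum _ fun i _ => continuous_finsetSum _ fun j _ => ?_
    refine Continuous.mul continuous_const ?_
    refine Continuous.rpow_const ?_ (fun _ => Or.inr hp.le)
    exact (continuous_const.sub (continuous_id.mul continuous_const)).max continuous_const
  have hG0 : G 0 = ∑ i, ∑ j, π i * (P ^ t) i j * (T i j) ^ p := by
    rw [hG]
    refine Finset.sum_congr rfl fun i _ => Finset.sum_congr rfl fun j _ => ?_
    have : max (T i j - 0 * L i j) 0 = T i j := by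
      rw [zero_mul, sub_zero]
      exact max_eq_left (abs_nonneg _)
    rw [this]
  have htend : Filter.Tendsto G (nhdsWithin 0 (Set.Ioi 0)) (nhds (G 0)) :=
    hcont.continuousWithinAt.tendsto
  have hev : ∀ᶠ δ in nhdsWithin (0 : ℝ) (Set.Ioi 0), G δ ≤ R := by
    filter_upwards [self_mem_nhdsWithin] with δ hδ
    exact key δ hδ
  have hfin : G 0 ≤ R := le_of_tendsto htend hev
  rw [hG0] at hfin
  exact hfin

end Vale.Agent.Lib.P125
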